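import Vale.Agent.P329.H131.Prim

/-!
# P329 / pair counts by the difference of the positions modulo `n`, every `n`
-/

set_option linter.all false

namespace Vale.Agent.P329.H131.Qn

open Vale.Agent.P329 Vale.Agent.P329.H559.C2
open Vale.Agent.P329.H766.Q2

section fib

variable {α : Type} {n : ℕ} [NeZero n]

theorem fib_nc {m : ℕ} [NeZero m] (h : m ∣ n) (a : α) (χ : ZMod m → ℤ) (X : List α) :
    ∑ g : ZMod n, χ (ZMod.castHom h (ZMod m) g) * nc n a g X = ∑ r : ZMod m, χ r * nc m a r X := by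
  classical
  induction X with
  | nil => simp [nc]
  | cons x X ih =>
    have h1 : ∀ g : ZMod n, χ (ZMod.castHom h (ZMod m) g) * nc n a g (x :: X) =
        χ (ZMod.castHom h (ZMod m) g) * nc n a g X +
          (if ((X.length : ℕ) : ZMod n) = g then
            (if x = a then χ (ZMod.castHom h (ZMod m) g) else 0) else 0) := by
      intro g
      rw [nc, mul_add]
      congr 1
      by_cases h2 : x = a
      · by_cases h3 : ((X.length : ℕ) : ZMod n) = g
        · rw [if_pos ⟨h2, h3⟩, if_pos h3, if_pos h2, mul_one]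
        · rw [if_neg (fun h => h3 h.2), if_neg h3, mul_zero]
      · rw [if_neg (fun h => h2 h.1), if_neg h2, mul_zero, ite_self]
    have h1' : ∀ r : ZMod m, χ r * nc m a r (x :: X) =
        χ r * nc m a r X +
          (if ((X.length : ℕ) : ZMod m) = r then (if x = a then χ r else 0) else 0) := by
      intro r
      rw [nc, mul_add]
      congr 1
      by_cases h2 : x = a
      · by_cases h3 : ((X.length : ℕ) : ZMod m) = r
        · rw [if_pos ⟨h2, h3⟩, if_pos h3, if_pos h2, mul_one]
        · rw [if_neg (fun h => h3 h.2), if_neg h3, mul_zero]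
      · rw [if_neg (fun h => h2 h.1), if_neg h2, mul_zero, ite_self]
    rw [Finset.sum_congr rfl fun g _ => h1 g, Finset.sum_congr rfl fun g _ => h1' g,
      Finset.sum_add_distrib, Finset.sum_add_distrib, Finset.sum_ite_eq, Finset.sum_ite_eq,
      if_pos (Finset.mem_univ _), if_pos (Finset.mem_univ _), map_natCast, ih]

theorem fib_PG {m : ℕ} [NeZero m] (h : m ∣ n) (a b : α) (ψ : ZMod m → ℤ) (X : List α) :
    ∑ g : ZMod n, ψ (ZMod.castHom h (ZMod m) g) * PG n g a b X =
      ∑ r : ZMod m, ψ r * PG m r a b X := by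
  classical
  induction X with
  | nil => simp [PG]
  | cons x X ih =>
    simp only [PG, mul_add, Finset.sum_add_distrib]
    rw [ih]
    congr 1
    by_cases hx : x = b
    · simp only [if_pos hx]
      have e1 : ∑ g : ZMod n, ψ (ZMod.castHom h (ZMod m) g) *
          nc n a (((X.length : ℕ) : ZMod n) - g) X =
          ∑ g : ZMod n, (fun r => ψ (((X.length : ℕ) : ZMod m) - r))
            (ZMod.castHom h (ZMod m) g) * nc n a g X := by
        rw [← Equiv.sum_comp (Equiv.subLeft ((X.length : ℕ) : ZMod n))]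
        refine Finset.sum_congr rfl fun g _ => ?_
        rw [Equiv.subLeft_apply, sub_sub_cancel, map_sub, map_natCast]
      have e2 : ∑ r : ZMod m, ψ r * nc m a (((X.length : ℕ) : ZMod m) - r) X =
          ∑ r : ZMod m, (fun r => ψ (((X.length : ℕ) : ZMod m) - r)) r * nc m a r X := by
        rw [← Equiv.sum_comp (Equiv.subLeft ((X.length : ℕ) : ZMod m))]
        refine Finset.sum_congr rfl fun g _ => ?_
        rw [Equiv.subLeft_apply, sub_sub_cancel]
      rw [e1, e2, fib_nc h a (fun r => ψ (((X.length : ℕ) : ZMod m) - r))]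
    · simp only [if_neg hx, mul_zero, Finset.sum_const_zero]

theorem per_fac {m : ℕ} (h : m ∣ n) {φ : ZMod n → ℤ}
    (hφ : ∀ g, φ (g + ((m : ℕ) : ZMod n)) = φ g) (g : ZMod n) :
    φ g = φ (((ZMod.castHom h (ZMod m) g).val : ℕ) : ZMod n) := by
  have h1 : ∀ (j : ℕ) (g : ZMod n), φ (g + ((j * m : ℕ) : ZMod n)) = φ g := by
    intro j
    induction j with
    | zero => intro g; rw [Nat.zero_mul, Nat.cast_zero, add_zero]
    | succ j ih => intro g; rw [Nat.succ_mul, Nat.cast_add, ← add_assoc, hφ, ih]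
  have h2 : ZMod.castHom h (ZMod m) g = ((g.val : ℕ) : ZMod m) := by
    conv_lhs => rw [← ZMod.natCast_zmod_val g]
    rw [map_natCast]
  rw [h2, ZMod.val_natCast]
  have h3 := h1 (g.val / m) (((g.val % m : ℕ) : ZMod n))
  rw [← h3, ← Nat.cast_add]
  congr 1
  rw [show g.val % m + g.val / m * m = g.val by
    rw [Nat.mul_comm]; exact Nat.mod_add_div _ _, ZMod.natCast_zmod_val]

/-- the average -/
def Av (p : ℕ) (φ : ZMod n → ℤ) (x : ZMod n) : ℤ :=
  ∑ j ∈ Finset.range p, φ (x + ((j * (n / p) : ℕ) : ZMod n))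

theorem av_per {p : ℕ} (hp : p ∣ n) (φ : ZMod n → ℤ) (x : ZMod n) :
    Av p φ (x + ((n / p : ℕ) : ZMod n)) = Av p φ x := by
  have h2 := Finset.sum_range_succ (fun j : ℕ => φ (x + ((j * (n / p) : ℕ) : ZMod n))) p
  have h3 := Finset.sum_range_succ' (fun j : ℕ => φ (x + ((j * (n / p) : ℕ) : ZMod n))) p
  have h4 : ((p * (n / p) : ℕ) : ZMod n) = 0 := by
    rw [Nat.mul_div_cancel' hp, ZMod.natCast_self]
  have h5 : ((0 * (n / p) : ℕ) : ZMod n) = 0 := by rw [Nat.zero_mul, Nat.cast_zero]
  have h6 : Av p φ (x + ((n / p : ℕ) : ZMod n)) =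
      ∑ j ∈ Finset.range p, φ (x + (((j + 1) * (n / p) : ℕ) : ZMod n)) := by
    refine Finset.sum_congr rfl fun j _ => ?_
    rw [Nat.succ_mul, Nat.cast_add, ← add_assoc, add_right_comm]
  rw [h4] at h2
  rw [h5] at h3
  rw [h6]
  unfold Av
  linarith

theorem av_lin (p : ℕ) (c : ℤ) (φ ψ : ZMod n → ℤ) (x : ZMod n) :
    Av p (fun y => c * φ y - ψ y) x = c * Av p φ x - Av p ψ x := by
  unfold Av
  rw [Finset.sum_sub_distrib, Finset.mul_sum]

theorem av_av {p : ℕ} (hp : p ∣ n) (φ : ZMod n → ℤ) (x : ZMod n) :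
    Av p (Av p φ) x = (p : ℤ) * Av p φ x := by
  have h1 : ∀ j ∈ Finset.range p, Av p φ (x + ((j * (n / p) : ℕ) : ZMod n)) = Av p φ x :=
    fun j _ => per_mul (av_per hp φ) j x
  rw [Av, Finset.sum_congr rfl h1, Finset.sum_const, Finset.card_range, nsmul_eq_mul]

theorem av_comm (p p' : ℕ) (φ : ZMod n → ℤ) (x : ZMod n) :
    Av p' (Av p φ) x = Av p (Av p' φ) x := by
  unfold Av
  rw [Finset.sum_comm]
  refine Finset.sum_congr rfl fun i _ => Finset.sum_congr rfl fun j _ => ?_
  congr 1
  ring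

theorem av_zero (p : ℕ) {φ : ZMod n → ℤ} (h : ∀ x, φ x = 0) (x : ZMod n) : Av p φ x = 0 :=
  Finset.sum_eq_zero fun j _ => h _

end fib

section ind

variable {α : Type} [Finite α]

theorem per_known {n m : ℕ} [NeZero n] [NeZero m] (h : m ∣ n) (a b : α)
    (hm : ∀ r : ZMod m, KnZ fun w : List α => PG m r a b w.reverse) {φ : ZMod n → ℤ}
    (hφ : ∀ g, φ (g + ((m : ℕ) : ZMod n)) = φ g) :
    KnZ fun w : List α => ∑ g : ZMod n, φ g * PG n g a b w.reverse := by
  refine (KnZ.sum Finset.univ fun r _ => (hm r).mul_left (φ ((r.val : ℕ) : ZMod n))).congr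
    fun w => ?_
  rw [← fib_PG h a b (fun r : ZMod m => φ ((r.val : ℕ) : ZMod n)) w.reverse]
  refine Finset.sum_congr rfl fun g _ => ?_
  rw [per_fac h hφ g]

theorem down {n : ℕ} [NeZero n] (a b : α)
    (ih : ∀ p : ℕ, p.Prime → p ∣ n → ∀ φ : ZMod n → ℤ,
      (∀ g, φ (g + ((n / p : ℕ) : ZMod n)) = φ g) →
        KnZ fun w : List α => ∑ g : ZMod n, φ g * PG n g a b w.reverse) :
    ∀ (l : List ℕ) (Q : ℕ → Prop), (∀ p ∈ l, p.Prime ∧ p ∣ n) →
      (∀ φ : ZMod n → ℤ, (∀ p, p ∈ l ∨ Q p → ∀ x, Av p φ x = 0) →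
        KnZ fun w : List α => ∑ g : ZMod n, φ g * PG n g a b w.reverse) →
      ∀ φ : ZMod n → ℤ, (∀ p, Q p → ∀ x, Av p φ x = 0) →
        KnZ fun w : List α => ∑ g : ZMod n, φ g * PG n g a b w.reverse := by
  intro l
  induction l with
  | nil =>
    intro Q _ h φ hφ
    exact h φ fun p hp => hφ p (hp.resolve_left List.not_mem_nil)
  | cons p l ihl =>
    intro Q hl h φ hφ
    obtain ⟨hp, hpn⟩ := hl p List.mem_cons_self
    have h1 := ihl (fun p' => Q p' ∨ p' = p) (fun p' hp' => hl p' (List.mem_cons_of_mem _ hp'))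
      fun ψ hψ => h ψ fun p' hp' => hψ p' (by
        rcases hp' with hp' | hp'
        · rcases List.mem_cons.mp hp' with hp' | hp'
          · exact Or.inr (Or.inr hp')
          · exact Or.inl hp'
        · exact Or.inr (Or.inl hp'))
    have h2 := h1 (fun y => (p : ℤ) * φ y - Av p φ y) (by
      intro p' hp' x
      rw [av_lin]
      rcases hp' with hp' | rfl
      · rw [hφ p' hp' x, av_comm, av_zero p (hφ p' hp'), mul_zero, sub_zero]
      · rw [av_av hpn, sub_self])
    have h3 := ih p hp hpn (Av p φ) (av_per hpn φ)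
    refine KnZ.div (c := p) hp.pos ((h2.add h3).congr fun w => ?_)
    rw [← Finset.sum_add_distrib, Finset.mul_sum]
    exact Finset.sum_congr rfl fun g _ => by ring

/-- **pair counts by the difference of the positions modulo `n` are known** -/
theorem pgn' : ∀ n : ℕ, 0 < n → ∀ (g : ZMod n) (a b : α),
    KnZ fun w : List α => PG n g a b w.reverse := by
  intro n
  induction n using Nat.strong_induction_on with
  | _ n ih =>
    intro hn g a b
    classical
    haveI : NeZero n := ⟨hn.ne'⟩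
    have h1 := down a b (n := n) (fun p hp hpn φ hφ => by
      have h2 : 0 < n / p := Nat.div_pos (Nat.le_of_dvd hn hpn) hp.pos
      haveI : NeZero (n / p) := ⟨h2.ne'⟩
      exact per_known (Nat.div_dvd_of_dvd hpn) a b
        (fun r => ih (n / p) (Nat.div_lt_self hn hp.one_lt) h2 r a b) hφ)
      n.primeFactorsList (fun _ => False)
      (fun p hp => ⟨Nat.prime_of_mem_primeFactorsList hp, Nat.dvd_of_mem_primeFactorsList hp⟩)
      (fun φ hφ => prim_known φ (fun p hp hpn x =>
        hφ p (Or.inl ((Nat.mem_primeFactorsList hn.ne').mpr ⟨hp, hpn⟩)) x) a b)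
      (fun s => if s = g then 1 else 0) (fun p hp => hp.elim)
    refine h1.congr fun w => ?_
    simp only [ite_mul, one_mul, zero_mul, Finset.sum_ite_eq', Finset.mem_univ, if_true]

/-- **pair counts by the difference of the positions modulo `n` are known** -/
theorem pgn {n : ℕ} (hn : 0 < n) (g : ZMod n) (a b : α) :
    KnZ fun w : List α => H766.Q2.PG n g a b w.reverse := pgn' n hn g a b

end ind

end Vale.Agent.P329.H131.Qn
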