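import Vale.Agent.P329.H131.Q1n

/-!
# P329 / pair counts twisted with a primitive function
-/

set_option linter.all false

namespace Vale.Agent.P329.H131.Qn

open Vale.Agent.P329 Vale.Agent.P329.H559.C2
open Vale.Agent.P329.H766.Q2

section bil

variable {n : ℕ} [NeZero n]

/-- primitive functions -/
def Pr (φ : ZMod n → ℤ) : Prop := ∀ p : ℕ, p.Prime → p ∣ n → ∀ x,
  ∑ j ∈ Finset.range p, φ (x + ((j * (n / p) : ℕ) : ZMod n)) = 0

theorem per_mul {U : ZMod n → ℤ} {p : ℕ} (hU : ∀ g, U (g + ((n / p : ℕ) : ZMod n)) = U g) (j : ℕ) :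
    ∀ g, U (g + ((j * (n / p) : ℕ) : ZMod n)) = U g := by
  induction j with
  | zero => intro g; rw [Nat.zero_mul, Nat.cast_zero, add_zero]
  | succ j ih =>
    intro g
    rw [Nat.succ_mul, Nat.cast_add, ← add_assoc, hU, ih]

theorem sum_zero {φ U : ZMod n → ℤ} {p : ℕ} (hp : p.Prime) (hpn : p ∣ n) (hφ : Pr φ)
    (hU : ∀ g, U (g + ((n / p : ℕ) : ZMod n)) = U g) : ∑ g, φ g * U g = 0 := by
  have h1 : ((p : ℕ) : ℤ) * ∑ g, φ g * U g = 0 := by
    have h2 : ∀ j : ℕ, ∑ g, φ g * U g =
        ∑ g, φ (g + ((j * (n / p) : ℕ) : ZMod n)) * U g := by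
      intro j
      rw [← Equiv.sum_comp (Equiv.addRight (((j * (n / p) : ℕ)) : ZMod n))]
      refine Finset.sum_congr rfl fun g _ => ?_
      rw [Equiv.coe_addRight, per_mul hU]
    calc ((p : ℕ) : ℤ) * ∑ g, φ g * U g = ∑ j ∈ Finset.range p, ∑ g, φ g * U g := by
          rw [Finset.sum_const, Finset.card_range, nsmul_eq_mul]
      _ = ∑ j ∈ Finset.range p, ∑ g, φ (g + ((j * (n / p) : ℕ) : ZMod n)) * U g :=
          Finset.sum_congr rfl fun j _ => h2 j
      _ = ∑ g, (∑ j ∈ Finset.range p, φ (g + ((j * (n / p) : ℕ) : ZMod n))) * U g := by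
          rw [Finset.sum_comm]
          exact Finset.sum_congr rfl fun g _ => by rw [Finset.sum_mul]
      _ = 0 := Finset.sum_eq_zero fun g _ => by rw [hφ p hp hpn g, zero_mul]
  rcases mul_eq_zero.mp h1 with h2 | h2
  · exact absurd (Int.natCast_eq_zero.mp h2) hp.ne_zero
  · exact h2

theorem hb_leftn (φ u v : ZMod n → ℤ) {p : ℕ} (hp : p.Prime) (hpn : p ∣ n) (hφ : Pr φ)
    (hu : ∀ s, u (s + ((n / p : ℕ) : ZMod n)) = u s) : hb φ u v = 0 := by
  unfold hb
  refine sum_zero hp hpn hφ (U := fun g => ∑ s : ZMod n, v s * u (s - g)) fun g => ?_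
  refine Finset.sum_congr rfl fun s _ => ?_
  rw [← hu (s - (g + ((n / p : ℕ) : ZMod n)))]
  congr 2
  ring

theorem hb_rightn (φ u v : ZMod n → ℤ) {p : ℕ} (hp : p.Prime) (hpn : p ∣ n) (hφ : Pr φ)
    (hv : ∀ s, v (s + ((n / p : ℕ) : ZMod n)) = v s) : hb φ u v = 0 := by
  unfold hb
  have h1 : ∀ g : ZMod n, φ g * ∑ s : ZMod n, v s * u (s - g) =
      φ g * ∑ s : ZMod n, v (s + g) * u s := by
    intro g
    congr 1
    rw [← Equiv.sum_comp (Equiv.addRight g)]
    refine Finset.sum_congr rfl fun s _ => ?_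
    rw [Equiv.coe_addRight, add_sub_cancel_right]
  rw [Finset.sum_congr rfl fun g _ => h1 g]
  refine sum_zero hp hpn hφ (U := fun g => ∑ s : ZMod n, v (s + g) * u s) fun g => ?_
  refine Finset.sum_congr rfl fun s _ => ?_
  rw [← hv (s + g), add_assoc]

variable {α : Type}

theorem hb_exn (φ : ZMod n → ℤ) (hφ : Pr φ) (a b : α) (B' B : Blk α n) (h : Exn B' B) :
    hb φ (fun r => nc n a r B'.1) (fun r => nc n b r B.1) =
      hb φ (fun r => nc n a r B.1) (fun r => nc n b r B'.1) := by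
  obtain ⟨p, hp, hpn, h⟩ := h
  have h1 := hb_leftn φ (fun r => nc n a r B'.1 + nc n a r B.1) (fun r => nc n b r B.1) hp hpn hφ
    (h a)
  have h2 := hb_rightn φ (fun r => nc n a r B.1) (fun r => nc n b r B'.1 + nc n b r B.1) hp hpn hφ
    (h b)
  rw [hb_add_left] at h1
  rw [hb_add_right] at h2
  linarith

end bil

section known

variable {α : Type} [Finite α] {q : ℕ}

theorem bracketn [NeZero q] (hq : 0 < q) (φ : ZMod q → ℤ) (hφ : Pr φ)
    (a b : α) (B' B : Blk α q) : KnZ fun w : List α =>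
      pc B' B (ps (e0 (α := α) hq) w) *
          hb φ (fun r => nc q a r B'.1) (fun r => nc q b r B.1) +
        pc B B' (ps (e0 (α := α) hq) w) *
          hb φ (fun r => nc q a r B.1) (fun r => nc q b r B'.1) := by
  have hP := hpn (α := α) hq
  by_cases h1 : B' = B
  · subst h1
    have h2 := ct_known hq B'
    refine (((h2.mul h2).sub h2).mul_left
      (hb φ (fun r => nc q a r B'.1) (fun r => nc q b r B'.1))).congr fun w => ?_
    have h3 := pc_self B' (ps (e0 (α := α) hq) w)
    linear_combination (hb φ (fun r => nc q a r B'.1) (fun r => nc q b r B'.1)) * h3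
  by_cases h2 : Fln B'
  · obtain ⟨p, hp, hpn, h2⟩ := h2
    refine (KnZ.const 0).congr fun w => ?_
    rw [hb_leftn φ (fun r => nc q a r B'.1) _ hp hpn hφ (h2 a),
      hb_rightn φ _ (fun r => nc q b r B'.1) hp hpn hφ (h2 b)]
    ring
  by_cases h3 : Fln B
  · obtain ⟨p, hp, hpn, h3⟩ := h3
    refine (KnZ.const 0).congr fun w => ?_
    rw [hb_leftn φ (fun r => nc q a r B.1) _ hp hpn hφ (h3 a),
      hb_rightn φ _ (fun r => nc q b r B.1) hp hpn hφ (h3 b)]
    ring
  by_cases h4 : Exn B' B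
  · refine (((ct_known hq B').mul (ct_known hq B)).mul_left
      (hb φ (fun r => nc q a r B'.1) (fun r => nc q b r B.1))).congr fun w => ?_
    rw [← hb_exn φ hφ a b B' B h4]
    have h5 := pc_pc h1 (ps (e0 (α := α) hq) w)
    linear_combination (hb φ (fun r => nc q a r B'.1) (fun r => nc q b r B.1)) * h5
  have h5 : ¬ Exn B B' := fun h => h4 h.symm
  refine (((hP (e0 hq) B' B h1 h2 h3 h4).mul_left
      (hb φ (fun r => nc q a r B'.1) (fun r => nc q b r B.1))).add
    ((hP (e0 hq) B B' (Ne.symm h1) h3 h2 h5).mul_left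
      (hb φ (fun r => nc q a r B.1) (fun r => nc q b r B'.1)))).congr fun w => ?_
  ring

/-- **primitive twisted pair counts are known** -/
theorem prim_known [NeZero q] (φ : ZMod q → ℤ) (hφ : Pr φ)
    (a b : α) : KnZ fun w : List α => ∑ g : ZMod q, φ g * PG q g a b w.reverse := by
  classical
  have hq : 0 < q := Nat.pos_of_ne_zero (NeZero.ne q)
  haveI := Fintype.ofFinite (Blk α q)
  -- the four parts
  have k1 : KnZ fun w : List α => ∑ g : ZMod q, φ g * PG q g a b (rm (e0 (α := α) hq) w).1 :=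
    KnZ.of_kn (rm_known hq) fun K => ∑ g : ZMod q, φ g * PG q g a b K.1
  have k2 : KnZ fun w : List α => ∑ B : Blk α q, ct B (ps (e0 (α := α) hq) w) *
      hb φ (fun r => nc q a r B.1) (fun r => nc q b r (rm (e0 (α := α) hq) w).1) :=
    KnZ.sum Finset.univ fun B _ => (ct_known hq B).mul (KnZ.of_kn (rm_known hq) fun K =>
      hb φ (fun r => nc q a r B.1) (fun r => nc q b r K.1))
  have k3 : KnZ fun w : List α => ∑ B : Blk α q, (∑ g : ZMod q, φ g * PG q g a b B.1) *
      ct B (ps (e0 (α := α) hq) w) :=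
    KnZ.sum Finset.univ fun B _ => (ct_known hq B).mul_left _
  have k4 : KnZ fun w : List α => ∑ B' : Blk α q, ∑ B : Blk α q,
      pc B' B (ps (e0 (α := α) hq) w) *
        hb φ (fun r => nc q a r B'.1) (fun r => nc q b r B.1) := by
    refine KnZ.div (c := 2) two_pos ((KnZ.sum Finset.univ fun B' _ => KnZ.sum Finset.univ fun B _ =>
      bracketn hq φ hφ a b B' B).congr fun w => ?_)
    simp only [Finset.sum_add_distrib]
    rw [Finset.sum_comm (f := fun B' B : Blk α q => pc B B' (ps (e0 (α := α) hq) w) *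
      hb φ (fun r => nc q a r B.1) (fun r => nc q b r B'.1))]
    push_cast
    ring
  refine (((k1.add k2).add k3).add k4).congr fun w => ?_
  have h0 : w.reverse = (rm (e0 (α := α) hq) w).1 ++ fl (ps (e0 (α := α) hq) w) := by
    have h := dec w (e0 (α := α) hq)
    rw [← h]
    exact (List.append_nil _).symm
  rw [h0]
  have h1 : ∀ g : ZMod q, φ g * PG q g a b
      ((rm (e0 (α := α) hq) w).1 ++ fl (ps (e0 (α := α) hq) w)) =
      φ g * PG q g a b (rm (e0 (α := α) hq) w).1 +
      (∑ B : Blk α q, ct B (ps (e0 (α := α) hq) w) * (φ g *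
        ∑ s : ZMod q, nc q b s (rm (e0 (α := α) hq) w).1 * nc q a (s - g) B.1)) +
      (∑ B : Blk α q, φ g * PG q g a b B.1 * ct B (ps (e0 (α := α) hq) w)) +
      ∑ B' : Blk α q, ∑ B : Blk α q, pc B' B (ps (e0 (α := α) hq) w) *
        (φ g * ∑ s : ZMod q, nc q b s B.1 * nc q a (s - g) B'.1) := by
    intro g
    rw [PG_append _ _ _ _ _ (fl_cast _), cr_fl, PG_fl]
    simp only [mul_add, Finset.mul_sum, hh]
    rw [← add_assoc]
    congr 1
    · congr 1
      · congr 1
        refine Finset.sum_congr rfl fun B _ => Finset.sum_congr rfl fun s _ => by ring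
      · exact Finset.sum_congr rfl fun B _ => by ring
    · refine Finset.sum_congr rfl fun B' _ => Finset.sum_congr rfl fun B _ =>
        Finset.sum_congr rfl fun s _ => by ring
  rw [Finset.sum_congr rfl fun g _ => h1 g]
  simp only [Finset.sum_add_distrib]
  congr 1
  · congr 1
    · congr 1
      rw [Finset.sum_comm]
      refine Finset.sum_congr rfl fun B _ => ?_
      rw [← Finset.mul_sum]
      rfl
    · rw [Finset.sum_comm]
      refine Finset.sum_congr rfl fun B _ => ?_
      rw [← Finset.sum_mul]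
  · rw [Finset.sum_comm]
    refine Finset.sum_congr rfl fun B' _ => ?_
    rw [Finset.sum_comm]
    refine Finset.sum_congr rfl fun B _ => ?_
    rw [← Finset.mul_sum]
    rfl

end known

end Vale.Agent.P329.H131.Qn
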