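import Vale.Agent.P329.H559.C2.Sys2
import Vale.Agent.P329.H559.C2.Lift
import Mathlib.Data.Nat.ChineseRemainder

/-!
# P329 / pair counts of blocks of `N` letters, `N` prime
-/

set_option linter.all false

namespace Vale.Agent.P329.H131

open Vale.Agent.P329 Vale.Agent.P329.H559 Vale.Agent.P329.H559.C2

section sys

variable {A : Type} {M : ℕ} [NeZero M] (d : A → ℤ) (T : A → Prop)

open Classical in
/-- the transition -/
noncomputable def st (u : ZMod M) (x : A) : Option (ZMod M) :=
  if u + ((d x : ℤ) : ZMod M) = 0 ∧ (d x ≠ 0 ∨ T x) then none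
  else some (u + ((d x : ℤ) : ZMod M))

/-- the drift -/
def dr : List A → ℤ
  | [] => 0
  | x :: w => d x + dr w

variable {d T}

theorem st_some {u t : ZMod M} {x : A} (h : st d T u x = some t) :
    t = u + ((d x : ℤ) : ZMod M) ∧
      ¬ (u + ((d x : ℤ) : ZMod M) = 0 ∧ (d x ≠ 0 ∨ T x)) := by
  unfold st at h
  by_cases h0 : u + ((d x : ℤ) : ZMod M) = 0 ∧ (d x ≠ 0 ∨ T x)
  · rw [if_pos h0] at h; cases h
  · rw [if_neg h0] at h
    exact ⟨(Option.some.inj h).symm, h0⟩

theorem run_val' (hd : ∀ x, d x = 0 ∨ d x = 1) {w : List A} :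
    ∀ {s t : ZMod M}, run (st d T) s w = some t → s ≠ 0 →
      t ≠ 0 ∧ (t.val : ℤ) = (s.val : ℤ) + dr d w := by
  induction w with
  | nil => intro s t h hU; cases h; exact ⟨hU, by rw [dr, add_zero]⟩
  | cons x w ih =>
    intro s t h hU
    obtain ⟨s1, h1, h2⟩ := run_cons_eq_some h
    obtain ⟨rfl, h0⟩ := st_some h1
    have h3 : s + ((d x : ℤ) : ZMod M) ≠ 0 := by
      intro h4
      apply h0
      refine ⟨h4, Or.inl ?_⟩
      intro h5
      rw [h5, Int.cast_zero, add_zero] at h4
      exact hU h4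
    obtain ⟨h4, h5⟩ := ih h2 h3
    refine ⟨h4, ?_⟩
    rw [h5, val_add (Or.inr (hd x)) hU h3, dr]
    ring

theorem run_zero' (hd : ∀ x, d x = 0 ∨ d x = 1) {w : List A} :
    ∀ {s t : ZMod M}, run (st d T) s w = some t → s = 0 → t = 0 → dr d w = 0 := by
  induction w with
  | nil => intro s t h hU hU'; rfl
  | cons x w ih =>
    intro s t h hU hU'
    obtain ⟨s1, h1, h2⟩ := run_cons_eq_some h
    obtain ⟨rfl, h0⟩ := st_some h1
    have h3 : s + ((d x : ℤ) : ZMod M) = 0 := by
      by_contra h3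
      exact (run_val' hd h2 h3).1 hU'
    have h4 : d x = 0 := by
      by_contra h4
      exact h0 ⟨h3, Or.inl h4⟩
    rw [dr, h4, zero_add]
    exact ih h2 h3 hU'

theorem dr_all (hd : ∀ x, d x = 0 ∨ d x = 1) {w : List A} :
    0 ≤ dr d w ∧ (dr d w = 0 → ∀ x ∈ w, d x = 0) := by
  induction w with
  | nil => exact ⟨le_rfl, fun _ x hx => absurd hx (List.not_mem_nil)⟩
  | cons x w ih =>
    obtain ⟨h1, h2⟩ := ih
    rw [dr]
    refine ⟨?_, fun h3 y hy => ?_⟩
    · rcases hd x with h | h <;> omega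
    · have h4 : d x = 0 := by rcases hd x with h | h <;> omega
      rcases List.mem_cons.mp hy with rfl | hy
      · exact h4
      · exact h2 (by omega) y hy

theorem loop_all (hd : ∀ x, d x = 0 ∨ d x = 1) {w : List A} {s : ZMod M}
    (h : run (st d T) s w = some s) : ∀ x ∈ w, d x = 0 := by
  refine (dr_all hd).2 ?_
  by_cases hs : s = 0
  · exact run_zero' hd h hs hs
  · have := (run_val' hd h hs).2
    omega

theorem run_const {w : List A} : ∀ {s t : ZMod M}, (∀ x ∈ w, d x = 0) →
    run (st d T) s w = some t → t = s := by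
  induction w with
  | nil => intro s t _ h; cases h; rfl
  | cons x w ih =>
    intro s t h0 h
    obtain ⟨s1, h1, h2⟩ := run_cons_eq_some h
    obtain ⟨rfl, -⟩ := st_some h1
    rw [ih (fun y hy => h0 y (List.mem_cons_of_mem _ hy)) h2, h0 x List.mem_cons_self,
      Int.cast_zero, add_zero]

end sys

/-! ### windows of an infinite word -/

section win

variable {α : Type} {N : ℕ}

/-- window of length `N` at place `t`, most recent letter first -/
def wd (N : ℕ) (f : ℕ → α) (t : ℕ) : List α := ((List.range N).map fun i => f (t + i)).reverse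

theorem wd_len (f : ℕ → α) (t : ℕ) : (wd N f t).length = N := by
  rw [wd, List.length_reverse, List.length_map, List.length_range]

theorem wd_congr {f g : ℕ → α} {t u : ℕ} (h : ∀ i, i < N → f (t + i) = g (u + i)) :
    wd N f t = wd N g u := by
  rw [wd, wd]
  congr 1
  refine List.map_congr_left fun i hi => h i (List.mem_range.mp hi)

theorem wd_inj {f g : ℕ → α} {t u : ℕ} (h : wd N f t = wd N g u) :
    ∀ i, i < N → f (t + i) = g (u + i) := by
  intro i hi
  rw [wd, wd] at h
  have h1 := List.reverse_injective h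
  have h2 := List.map_inj_left.mp h1 i (List.mem_range.mpr hi)
  exact h2

theorem ps_one (v : List α) : ∀ (K : Par α N), v ≠ [] → (e : K.1.length + v.length = N) →
    ∃ B : Blk α N, ps K v = [B] ∧ B.1 = v.reverse ++ K.1 := by
  induction v with
  | nil => intro K h; exact absurd rfl h
  | cons b v ih =>
    intro K _ e
    rw [List.length_cons] at e
    by_cases hv : v = []
    · subst hv
      have e1 : K.1.length + 1 = N := by simpa using e
      exact ⟨⟨b :: K.1, e1⟩, by rw [ps_full b _ e1, ps], by simp⟩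
    · have hv' : 0 < v.length := List.length_pos_iff.mpr hv
      have e1 : ¬ K.1.length + 1 = N := by omega
      have h1 := nxt_part (K := K) b e1
      obtain ⟨B, h2, h3⟩ := ih (nxt K b) hv (by rw [h1, List.length_cons]; omega)
      refine ⟨B, by rw [ps_part b _ e1, h2], ?_⟩
      rw [h3, h1, List.reverse_cons, List.append_assoc, List.singleton_append]

theorem mem_ps (hN : 0 < N) (f : ℕ → α) (K : Par α N) {t m : ℕ} (h1 : (K.1.length + t) % N = 0)
    (h2 : t + N ≤ m) : ∃ B ∈ ps K ((List.range m).map f), B.1 = wd N f t := by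
  obtain ⟨r, rfl⟩ : ∃ r, m = t + N + r := ⟨m - (t + N), by omega⟩
  rw [List.range_add, List.map_append, List.range_add, List.map_append, ps_append, ps_append]
  have h3 := (rm_len ((List.range t).map f) K).2.1
  rw [List.length_map, List.length_range, h1] at h3
  set K' := rm K ((List.range t).map f)
  obtain ⟨B, h4, h5⟩ := ps_one (N := N) (List.map f (List.map (fun x => t + x) (List.range N))) K'
    (by
      intro h
      have := congrArg List.length h
      simp at this
      omega)
    (by simp [h3])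
  refine ⟨B, ?_, ?_⟩
  · rw [h4]
    simp
  · rw [h5, List.length_eq_zero_iff.mp h3, List.append_nil, wd, List.map_map]
    rfl

theorem pw_range (z : List α) (hz : 0 < z.length) (m : ℕ) :
    pw z m = (List.range (m * z.length)).map fun t => z[t % z.length]'(Nat.mod_lt _ hz) := by
  induction m with
  | zero => simp [pw_zero]
  | succ m ih =>
    rw [pw_succ, ← pw_comm, ih, Nat.succ_mul, List.range_add, List.map_append]
    congr 1
    refine List.ext_getElem (by simp) fun i h1 h2 => ?_
    simp only [List.getElem_map, List.getElem_range]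
    have : (m * z.length + i) % z.length = i := by
      rw [Nat.mul_comm, Nat.mul_add_mod, Nat.mod_eq_of_lt h1]
    simp only [this]

end win

/-! ### no cycles -/

section nocyc

variable {α : Type} {N : ℕ} {M : ℕ} [NeZero M] {d : Blk α N → ℤ} {T : Blk α N → Prop}

theorem nocyc_lf (hN : N.Prime) (hd : ∀ B, d B = 0 ∨ d B = 1)
    (hf : ∀ f : ℕ → α, ∃ t, d ⟨wd N f t, wd_len f t⟩ ≠ 0) :
    NoCyc (lf (st (M := M) d T)) := by
  rintro z ⟨s, K⟩ n hn hrun
  change run (lf (st d T)) (s, K) (pw z n) = some (s, K) at hrun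
  by_cases hz : z = []
  · subst hz; rfl
  have hz' : 0 < z.length := List.length_pos_iff.mpr hz
  have key : ∀ j, run (st d T) s (ps K (pw z (n * j))) = some s ∧ rm K (pw z (n * j)) = K := by
    intro j
    have h1 := run_pw hrun j
    rw [← pw_mul, run_lf] at h1
    rcases h3 : run (st d T) s (ps K (pw z (n * j))) with _ | t
    · rw [h3] at h1; cases h1
    · rw [h3] at h1
      have h4 := Option.some.inj h1
      have h5 : t = s := congrArg Prod.fst h4
      exact ⟨by rw [h5], congrArg Prod.snd h4⟩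
  by_cases hd' : N ∣ z.length
  · obtain ⟨h1, h2⟩ := key 1
    rw [Nat.mul_one] at h1 h2
    have h3 := rm_cyc hn hz hd' h2
    have h4 := loop_all hd h1
    obtain ⟨k, rfl⟩ : ∃ k, n = k + 1 := ⟨n - 1, by omega⟩
    rw [pw_succ, ps_append] at h1 h4
    obtain ⟨s1, h5, -⟩ := run_append_eq_some h1
    have h6 := run_const (fun x hx => h4 x (List.mem_append_left _ hx)) h5
    rw [run_lf, h5, h3, h6]
    rfl
  exfalso
  let f : ℕ → α := fun t => z[t % z.length]'(Nat.mod_lt _ hz')
  obtain ⟨t, ht⟩ := hf f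
  have hco : Nat.Coprime z.length N := ((Nat.Prime.coprime_iff_not_dvd hN).mpr hd').symm
  obtain ⟨t', h1, h2⟩ := Nat.chineseRemainder hco t (N - K.1.length)
  have hK := K.2
  have h3 : (K.1.length + t') % N = 0 := by
    have h4 : K.1.length + t' ≡ K.1.length + (N - K.1.length) [MOD N] := Nat.ModEq.add_left _ h2
    rw [show K.1.length + (N - K.1.length) = N by omega] at h4
    rw [h4]
    exact Nat.mod_self N
  have h5 : wd N f t' = wd N f t := by
    refine wd_congr fun i _ => ?_
    change z[(t' + i) % z.length]'_ = z[(t + i) % z.length]'_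
    have : (t' + i) % z.length = (t + i) % z.length := Nat.ModEq.add_right i h1
    simp only [this]
  obtain ⟨B, h6, h7⟩ := mem_ps (m := (n * (t' + N)) * z.length) hN.pos f K h3 (by
    calc t' + N = 1 * (t' + N) * 1 := by ring
      _ ≤ n * (t' + N) * z.length :=
        Nat.mul_le_mul (Nat.mul_le_mul_right _ hn) hz')
  rw [← pw_range z hz'] at h6
  have h8 := loop_all hd (key (t' + N)).1 B h6
  apply ht
  have h9 : B = ⟨wd N f t, wd_len f t⟩ := Subtype.ext (h7.trans h5)
  rw [← h9, h8]

end nocyc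

/-! ### counting -/

section count

variable {A : Type} {M : ℕ} [NeZero M]

open Classical in
/-- number of letters `b` with coordinate zero -/
noncomputable def el (d : A → ℤ) (b : A) : ZMod M → List A → ℤ
  | _, [] => 0
  | u, x :: w => (if b = x ∧ u = 0 then 1 else 0) + el d b (u + ((d x : ℤ) : ZMod M)) w

open Classical in
theorem cnt_st (d : A → ℤ) (T : A → Prop) (u : ZMod M) (x : A) (w : List A) :
    cnt (st d T) 0 u (x :: w) =
      (if u + ((d x : ℤ) : ZMod M) = 0 ∧ (d x ≠ 0 ∨ T x) then 1 else 0) +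
        cnt (st d T) 0 (u + ((d x : ℤ) : ZMod M)) w := by
  by_cases h0 : u + ((d x : ℤ) : ZMod M) = 0 ∧ (d x ≠ 0 ∨ T x)
  · have h1 : st d T u x = none := by
      unfold st
      rw [if_pos h0]
    rw [cnt_cons_none w h1, if_pos h0, h0.1, Nat.add_comm]
  · have h1 : st d T u x = some (u + ((d x : ℤ) : ZMod M)) := by
      unfold st
      rw [if_neg h0]
    rw [cnt_cons_some w h1, if_neg h0, Nat.zero_add]

theorem el_eq (d : A → ℤ) (b : A) (hb : d b = 0) (w : List A) : ∀ u : ZMod M,
    (cnt (st d fun x => b = x) 0 u w : ℤ) - (cnt (st d fun _ => False) 0 u w : ℤ) =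
      el d b u w := by
  classical
  induction w with
  | nil => intro u; rw [el, cnt, cnt, sub_self]
  | cons x w ih =>
    intro u
    rw [cnt_st, cnt_st, el, ← ih]
    by_cases h1 : b = x
    · have h2 : d x = 0 := by rw [← h1]; exact hb
      rw [h2, Int.cast_zero, add_zero]
      by_cases h3 : u = 0
      · rw [if_pos ⟨h3, Or.inr h1⟩, if_neg (by rintro ⟨-, h4 | h4⟩; exact h4 rfl; exact h4),
          if_pos ⟨h1, h3⟩]
        push_cast; ring
      · rw [if_neg (fun h => h3 h.1), if_neg (fun h => h3 h.1), if_neg (fun h => h3 h.2)]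
        push_cast; ring
    · rw [if_neg (fun h : b = x ∧ u = 0 => h1 h.1)]
      by_cases h3 : u + ((d x : ℤ) : ZMod M) = 0 ∧ d x ≠ 0
      · rw [if_pos ⟨h3.1, Or.inl h3.2⟩, if_pos ⟨h3.1, Or.inl h3.2⟩]
        push_cast; ring
      · rw [if_neg (fun h => by
          rcases h.2 with h4 | h4
          · exact h3 ⟨h.1, h4⟩
          · exact h1 h4), if_neg (fun h => by
          rcases h.2 with h4 | h4
          · exact h3 ⟨h.1, h4⟩
          · exact h4)]
        push_cast; ring

open Classical in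
/-- sum over the letters `b` of `k` plus the sum of `d` over the earlier letters -/
noncomputable def dP (d : A → ℤ) (b : A) : ℤ → List A → ℤ
  | _, [] => 0
  | k, x :: w => (if x = b then k else 0) + dP d b (k + d x) w

theorem dP_sub (d₁ d₂ d₃ : A → ℤ) (h : ∀ x, d₁ x = d₂ x + d₃ x) (b : A) (w : List A) :
    ∀ k₁ k₂ k₃ : ℤ, k₁ = k₂ + k₃ → dP d₁ b k₁ w = dP d₂ b k₂ w + dP d₃ b k₃ w := by
  classical
  induction w with
  | nil => intro k₁ k₂ k₃ _; rw [dP, dP, dP, add_zero]
  | cons x w ih =>
    intro k₁ k₂ k₃ hk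
    rw [dP, dP, dP, ih _ (k₂ + d₂ x) (k₃ + d₃ x) (by rw [hk, h]; ring)]
    by_cases h1 : x = b
    · rw [if_pos h1, if_pos h1, if_pos h1, hk]; ring
    · rw [if_neg h1, if_neg h1, if_neg h1]; ring

theorem dP_pc (a b : A) (w : List A) : ∀ k : ℤ,
    (open Classical in dP (fun x => if x = a then 1 else 0) b k w) = pcA a b k w := by
  classical
  induction w with
  | nil => intro k; rfl
  | cons x w ih => intro k; rw [dP, pcA, ih]

theorem dP_el (d : A → ℤ) (b : A) (w : List A) : ∀ k : ℤ,
    ((dP d b k w : ℤ) : ZMod M) =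
      ∑ u : ZMod M, ((k : ZMod M) - u) * ((el d b u w : ℤ) : ZMod M) := by
  classical
  induction w with
  | nil =>
    intro k
    rw [dP, Int.cast_zero]
    refine (Finset.sum_eq_zero fun u _ => ?_).symm
    rw [el, Int.cast_zero, mul_zero]
  | cons x w ih =>
    intro k
    rw [dP]
    have h1 : ∀ u : ZMod M, ((k : ZMod M) - u) * ((el d b u (x :: w) : ℤ) : ZMod M) =
        (if u = 0 then (if x = b then (k : ZMod M) else 0) else 0) +
        ((k : ZMod M) - u) * ((el d b (u + ((d x : ℤ) : ZMod M)) w : ℤ) : ZMod M) := by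
      intro u
      rw [el, Int.cast_add, mul_add]
      congr 1
      by_cases h2 : u = 0
      · subst h2
        by_cases h3 : x = b
        · rw [if_pos ⟨h3.symm, rfl⟩, if_pos rfl, if_pos h3, sub_zero, Int.cast_one, mul_one]
        · rw [if_neg (fun h => h3 h.1.symm), if_pos rfl, if_neg h3, Int.cast_zero, mul_zero]
      · rw [if_neg (fun h => h2 h.2), if_neg h2, Int.cast_zero, mul_zero]
    rw [Finset.sum_congr rfl fun u _ => h1 u, Finset.sum_add_distrib, Finset.sum_ite_eq',
      if_pos (Finset.mem_univ _), Int.cast_add, ih]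
    congr 1
    · by_cases h3 : x = b
      · rw [if_pos h3, if_pos h3]
      · rw [if_neg h3, if_neg h3, Int.cast_zero]
    · rw [← Equiv.sum_comp (Equiv.addRight ((d x : ℤ) : ZMod M))]
      refine Finset.sum_congr rfl fun u _ => ?_
      rw [Equiv.coe_addRight, Int.cast_add]
      congr 1
      ring

end count

section known

variable {α : Type} [Finite α] {N : ℕ}

/-- admissible weights -/
def Ad (d : Blk α N → ℤ) : Prop :=
  (∀ B, d B = 0 ∨ d B = 1) ∧ ∀ f : ℕ → α, ∃ t, d ⟨wd N f t, wd_len f t⟩ ≠ 0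

theorem kz_el (hN : N.Prime) {d : Blk α N → ℤ} (hd : Ad d) {β : Blk α N} (hβ : d β = 0) {M : ℕ}
    [NeZero M] (u : ZMod M) : KZ fun w => el d β u w := by
  intro K
  have h3 := KnZ.of_event (nocyc_lf (M := M) (T := fun x => β = x) hN hd.1 hd.2)
    (0, ⟨[], hN.pos⟩) (u, K)
  have h4 := KnZ.of_event (nocyc_lf (M := M) (T := fun _ => False) hN hd.1 hd.2)
    (0, ⟨[], hN.pos⟩) (u, K)
  refine (h3.sub h4).congr fun w => ?_
  change el d β u (ps K w) = _
  rw [← el_eq d β hβ, (fin_lf ⟨[], hN.pos⟩ rfl 0 w u K).2, (fin_lf ⟨[], hN.pos⟩ rfl 0 w u K).2]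

theorem kz_dP (hN : N.Prime) {d : Blk α N → ℤ} (hd : Ad d) {β : Blk α N} (hβ : d β = 0) :
    KZ fun w => dP d β 0 w := by
  intro K n hn
  haveI : NeZero n := ⟨hn.ne'⟩
  have h1 := kn_sum (α := α) (A := ZMod n) (Finset.univ : Finset (ZMod n)) fun u _ =>
    (kz_el hN hd hβ u K n hn).comp fun x => (((0 : ℤ) : ZMod n) - u) * x
  intro v
  refine Eq.mp (congrArg (SH 1) ?_) (h1 v)
  ext w
  change (∑ u : ZMod n, (((0 : ℤ) : ZMod n) - u) * ((el d β u (ps K w) : ℤ) : ZMod n)) = v ↔
    ((dP d β 0 (ps K w) : ℤ) : ZMod n) = v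
  rw [dP_el]

/-- all letters equal -/
def Lp (B : Blk α N) : Prop := ∃ x, ∀ y ∈ B.1, y = x

/-- the exceptional pairs -/
def Ex (β γ : Blk α N) : Prop :=
  ∃ g : ℕ → α, (∀ i, g (i + 2) = g i) ∧ β.1 = wd N g 0 ∧ γ.1 = wd N g 1

theorem Ex.symm {β γ : Blk α N} (h : Ex β γ) : Ex γ β := by
  obtain ⟨g, h1, h2, h3⟩ := h
  refine ⟨fun i => g (i + 1), fun i => h1 (i + 1), ?_, ?_⟩
  · rw [h3]
    refine wd_congr fun i _ => ?_
    change g (1 + i) = g (0 + i + 1)
    congr 1; omega
  · rw [h2]
    refine wd_congr fun i _ => ?_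
    change g (0 + i) = g (1 + i + 1)
    rw [show 1 + i + 1 = i + 2 by omega, h1, Nat.zero_add]

theorem lp_of (hN : 0 < N) {f : ℕ → α} {t : ℕ} {B : Blk α N} (h : wd N f t = wd N f (t + 1))
    (hB : B.1 = wd N f t) : Lp B := by
  refine ⟨f t, fun y hy => ?_⟩
  rw [hB, wd, List.mem_reverse, List.mem_map] at hy
  obtain ⟨i, hi, rfl⟩ := hy
  rw [List.mem_range] at hi
  have h1 := wd_inj h
  induction i with
  | zero => rfl
  | succ i ih =>
    have h2 := h1 i (by omega)
    rw [show t + (i + 1) = t + 1 + i by omega, ← h2]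
    exact ih (by omega)

open Classical in
theorem ad_two (hN : 0 < N) {β γ : Blk α N} (hβ : ¬ Lp β) (hγ : ¬ Lp γ) (hE : ¬ Ex β γ)
    (f : ℕ → α) : ∃ t, (⟨wd N f t, wd_len f t⟩ : Blk α N) ≠ β ∧
      (⟨wd N f t, wd_len f t⟩ : Blk α N) ≠ γ := by
  by_contra hc
  have hc' : ∀ t, (⟨wd N f t, wd_len f t⟩ : Blk α N) = β ∨
      (⟨wd N f t, wd_len f t⟩ : Blk α N) = γ := by
    intro t
    by_contra h
    exact hc ⟨t, fun h1 => h (Or.inl h1), fun h1 => h (Or.inr h1)⟩
  have hne : ∀ t, wd N f t ≠ wd N f (t + 1) := by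
    intro t h
    rcases hc' t with h1 | h1
    · exact hβ (lp_of hN h (congrArg Subtype.val h1).symm)
    · exact hγ (lp_of hN h (congrArg Subtype.val h1).symm)
  have h02 : wd N f 0 = wd N f 2 := by
    rcases hc' 0 with h0 | h0 <;> rcases hc' 1 with h1 | h1 <;> rcases hc' 2 with h2 | h2 <;>
      have e0 := congrArg Subtype.val h0 <;> have e1 := congrArg Subtype.val h1 <;>
      have e2 := congrArg Subtype.val h2 <;> dsimp only at e0 e1 e2
    · exact e0.trans e2.symm
    · exact absurd (e0.trans e1.symm) (hne 0)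
    · exact e0.trans e2.symm
    · exact absurd (e1.trans e2.symm) (hne 1)
    · exact absurd (e1.trans e2.symm) (hne 1)
    · exact e0.trans e2.symm
    · exact absurd (e0.trans e1.symm) (hne 0)
    · exact e0.trans e2.symm
  have h3 := wd_inj h02
  let g : ℕ → α := fun i => f (i % 2)
  have hg : ∀ i, i < N + 2 → f i = g i := by
    intro i
    induction i using Nat.strong_induction_on with
    | _ i ih =>
      intro hi
      by_cases h4 : i < 2
      · change f i = f (i % 2)
        rw [Nat.mod_eq_of_lt h4]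
      · have h5 := h3 (i - 2) (by omega)
        rw [show 2 + (i - 2) = i by omega, Nat.zero_add] at h5
        rw [← h5, ih (i - 2) (by omega) (by omega)]
        change f ((i - 2) % 2) = f (i % 2)
        congr 1
        omega
  have hg2 : ∀ i, g (i + 2) = g i := fun i => by
    change f ((i + 2) % 2) = f (i % 2)
    rw [Nat.add_mod_right]
  have w0 : wd N f 0 = wd N g 0 := wd_congr fun i hi => hg _ (by omega)
  have w1 : wd N f 1 = wd N g 1 := wd_congr fun i hi => hg _ (by omega)
  rcases hc' 0 with h0 | h0 <;> rcases hc' 1 with h1 | h1 <;>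
    have e0 := congrArg Subtype.val h0 <;> have e1 := congrArg Subtype.val h1 <;>
    dsimp only at e0 e1
  · exact hne 0 (e0.trans e1.symm)
  · exact hE ⟨g, hg2, by rw [← e0, w0], by rw [← e1, w1]⟩
  · exact hE (Ex.symm ⟨g, hg2, by rw [← e0, w0], by rw [← e1, w1]⟩)
  · exact hne 0 (e0.trans e1.symm)

/-- **pair counts of blocks of prime length** -/
theorem pcq (hN : N.Prime) (K : Par α N) {γ β : Blk α N} (hne : γ ≠ β) (hγ : ¬ Lp γ)
    (hβ : ¬ Lp β) (hE : ¬ Ex β γ) : KnZ fun w : List α => pc γ β (ps K w) := by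
  classical
  let e₁ : Blk α N → ℤ := fun B => if B = β then 0 else 1
  let e₂ : Blk α N → ℤ := fun B => if B = β ∨ B = γ then 0 else 1
  have hE0 : ¬ Ex β β := by
    rintro ⟨g, h1, h2, h3⟩
    exact hβ (lp_of hN.pos (h2.symm.trans h3) h2)
  have a1 : Ad e₁ := by
    refine ⟨fun B => ?_, fun f => ?_⟩
    · change (if B = β then (0 : ℤ) else 1) = 0 ∨ (if B = β then (0 : ℤ) else 1) = 1
      split
      · exact Or.inl rfl
      · exact Or.inr rfl
    · obtain ⟨t, h1, -⟩ := ad_two hN.pos hβ hβ hE0 f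
      refine ⟨t, ?_⟩
      change (if _ = β then (0 : ℤ) else 1) ≠ 0
      rw [if_neg h1]
      decide
  have a2 : Ad e₂ := by
    refine ⟨fun B => ?_, fun f => ?_⟩
    · change (if B = β ∨ B = γ then (0 : ℤ) else 1) = 0 ∨
        (if B = β ∨ B = γ then (0 : ℤ) else 1) = 1
      split
      · exact Or.inl rfl
      · exact Or.inr rfl
    · obtain ⟨t, h1, h2⟩ := ad_two hN.pos hβ hγ hE f
      refine ⟨t, ?_⟩
      change (if _ = β ∨ _ = γ then (0 : ℤ) else 1) ≠ 0
      rw [if_neg (fun h => h.elim h1 h2)]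
      decide
  have b1 : e₁ β = 0 := if_pos rfl
  have b2 : e₂ β = 0 := if_pos (Or.inl rfl)
  refine ((kz_dP hN a1 b1 K).sub (kz_dP hN a2 b2 K)).congr fun w => ?_
  have h1 := dP_sub e₁ e₂ (fun x => if x = γ then 1 else 0) (fun x => by
    change (if x = β then (0 : ℤ) else 1) = (if x = β ∨ x = γ then (0 : ℤ) else 1) +
      (if x = γ then 1 else 0)
    by_cases h1 : x = β
    · rw [if_pos h1, if_pos (Or.inl h1), if_neg (fun h2 => hne (h2.symm.trans h1))]; rfl
    · by_cases h2 : x = γ
      · rw [if_neg h1, if_pos (Or.inr h2), if_pos h2]; rfl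
      · rw [if_neg h1, if_neg (fun h => h.elim h1 h2), if_neg h2]; rfl) β (ps K w) 0 0 0
    (by ring)
  change pc γ β (ps K w) = dP e₁ β 0 (ps K w) - dP e₂ β 0 (ps K w)
  have h2 : dP (fun x => if x = γ then 1 else 0) β 0 (ps K w) = pcA γ β 0 (ps K w) := by
    convert dP_pc γ β (ps K w) 0
  rw [h1, h2, pc]
  ring

/-! ### the form with indices -/

/-- all letters equal -/
def Cst (B : Blk α N) : Prop := ∃ x, ∀ i, i < N → B.1[i]? = some x

/-- the exceptional pairs -/
def Exc (B C : Blk α N) : Prop := ∃ x y, ∀ i, i < N →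
  B.1[i]? = some (if i % 2 = 0 then x else y) ∧ C.1[i]? = some (if i % 2 = 0 then y else x)

theorem Cst.of_lp {B : Blk α N} (h : Lp B) : Cst B := by
  obtain ⟨x, hx⟩ := h
  refine ⟨x, fun i hi => ?_⟩
  have h1 : i < B.1.length := by rw [B.2]; exact hi
  rw [List.getElem?_eq_getElem h1, hx _ (List.getElem_mem h1)]

theorem Exc.symm {B C : Blk α N} (h : Exc B C) : Exc C B := by
  obtain ⟨x, y, hxy⟩ := h
  exact ⟨y, x, fun i hi => ⟨(hxy i hi).2, (hxy i hi).1⟩⟩

theorem wd_get (g : ℕ → α) (t : ℕ) {i : ℕ} (hi : i < N) : (wd N g t)[i]? = some (g (t + (N - 1 - i))) := by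
  rw [wd, List.getElem?_reverse (by simpa using hi)]
  simp only [List.length_map, List.length_range, List.getElem?_map]
  rw [List.getElem?_range (by omega)]
  rfl

theorem Exc.of_ex (hN : 2 ≤ N) {β γ : Blk α N} (h : Ex β γ) : Exc β γ := by
  obtain ⟨g, h1, h2, h3⟩ := h
  have hg : ∀ k i, g (i + 2 * k) = g i := by
    intro k
    induction k with
    | zero => intro i; rfl
    | succ k ih => intro i; rw [show i + 2 * (k + 1) = (i + 2 * k) + 2 by ring, h1, ih]
  refine ⟨g (N - 1), g (N - 2), fun i hi => ⟨?_, ?_⟩⟩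
  · rw [h2, wd_get g 0 hi]
    congr 1
    by_cases h4 : i % 2 = 0
    · rw [if_pos h4]
      have := hg (i / 2) (0 + (N - 1 - i))
      rw [← this]
      congr 1
      omega
    · rw [if_neg h4]
      have := hg (i / 2) (0 + (N - 1 - i))
      rw [← this]
      congr 1
      omega
  · rw [h3, wd_get g 1 hi]
    congr 1
    by_cases h4 : i % 2 = 0
    · rw [if_pos h4]
      have := hg (i / 2) (1 + (N - 1 - i))
      rw [← this, ← h1 (N - 2)]
      congr 1
      omega
    · rw [if_neg h4]
      have := hg (i / 2) (1 + (N - 1 - i))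
      rw [← this]
      congr 1
      omega

/-- **pair counts of blocks of prime length**, form with indices -/
theorem pcq' (hN : N.Prime) (K : Par α N) (γ β : Blk α N) (hne : γ ≠ β) (hγ : ¬ Cst γ)
    (hβ : ¬ Cst β) (hE : ¬ Exc γ β) : KnZ fun w : List α => pc γ β (ps K w) :=
  pcq hN K hne (fun h => hγ (Cst.of_lp h)) (fun h => hβ (Cst.of_lp h))
    fun h => hE (Exc.of_ex hN.two_le h).symm

/-- total number of blocks, and the blocks which are not constant -/
theorem ctq (hN : N.Prime) (K : Par α N) {β : Blk α N} (hβ : ¬ Lp β) :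
    KnZ fun w : List α => ct β (ps K w) := by
  classical
  have hE0 : ¬ Ex β β := by
    rintro ⟨g, h1, h2, h3⟩
    exact hβ (lp_of hN.pos (h2.symm.trans h3) h2)
  let e₁ : Blk α N → ℤ := fun B => if B = β then 0 else 1
  let e₀ : Blk α N → ℤ := fun _ => 1
  have a1 : Ad e₁ := by
    refine ⟨fun B => ?_, fun f => ?_⟩
    · change (if B = β then (0 : ℤ) else 1) = 0 ∨ (if B = β then (0 : ℤ) else 1) = 1
      split
      · exact Or.inl rfl
      · exact Or.inr rfl
    · obtain ⟨t, h1, -⟩ := ad_two hN.pos hβ hβ hE0 f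
      refine ⟨t, ?_⟩
      change (if _ = β then (0 : ℤ) else 1) ≠ 0
      rw [if_neg h1]
      decide
  have a0 : Ad e₀ := ⟨fun _ => Or.inr rfl, fun _ => ⟨0, one_ne_zero⟩⟩
  have key : ∀ {d : Blk α N → ℤ}, Ad d → KnZ fun w : List α => dr d (ps K w) := by
    intro d hd n hn
    haveI : NeZero n := ⟨hn.ne'⟩
    have h3 := (Kn.of_event (nocyc_lf (M := n) (T := fun _ => False) hN hd.1 hd.2)
      (0, ⟨[], hN.pos⟩) (0, K)).comp fun x => x.1
    have hfin : ∀ (l : List (Blk α N)) (u : ZMod n),
        fin (st d fun _ => False) 0 u l = u + ((dr d l : ℤ) : ZMod n) := by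
      intro l
      induction l with
      | nil => intro u; rw [dr, Int.cast_zero, add_zero]; rfl
      | cons x l ih =>
        intro u
        rw [dr, Int.cast_add, ← add_assoc]
        by_cases h0 : u + ((d x : ℤ) : ZMod n) = 0 ∧ (d x ≠ 0 ∨ False)
        · have h1 : st d (fun _ => False) u x = none := by
            unfold st
            rw [if_pos h0]
          rw [fin_cons_none l h1, ih, h0.1]
        · have h1 : st d (fun _ => False) u x = some (u + ((d x : ℤ) : ZMod n)) := by
            unfold st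
            rw [if_neg h0]
          rw [fin_cons_some l h1, ih]
    intro v
    refine Eq.mp (congrArg (SH 1) ?_) (h3 v)
    ext w
    have h4 := congrArg Prod.fst (fin_lf (δ := st (M := n) d fun _ => False) ⟨[], hN.pos⟩ rfl 0 w 0 K).1
    rw [hfin, zero_add] at h4
    exact ⟨fun h5 => h4.symm.trans h5, fun h5 => h4.trans h5⟩
  refine ((key a0).sub (key a1)).congr fun w => ?_
  generalize ps K w = l
  induction l with
  | nil => rfl
  | cons x l ih =>
    rw [ct, dr, dr, ih]
    by_cases h : x = β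
    · rw [if_pos h]
      change (1 : ℤ) + _ = 1 + _ - ((if x = β then (0 : ℤ) else 1) + _)
      rw [if_pos h]; ring
    · rw [if_neg h]
      change (0 : ℤ) + _ = 1 + _ - ((if x = β then (0 : ℤ) else 1) + _)
      rw [if_neg h]; ring

end known

end Vale.Agent.P329.H131
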