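import Vale.Agent.P329.H131.Q1
import Vale.Agent.P329.H766.Q2F

/-!
# P329 / pair counts of blocks of `n` letters, every `n`
-/

set_option linter.all false

namespace Vale.Agent.P329.H131.Qn

open Vale.Agent.P329 Vale.Agent.P329.H559 Vale.Agent.P329.H559.C2 Vale.Agent.P329.H131
open Vale.Agent.P329.H766.Q2

section nocyc

variable {α : Type} {N : ℕ} {M : ℕ} [NeZero M] {d : Blk α N → ℤ} {T : Blk α N → Prop}

/-- admissible weights -/
def Adn (d : Blk α N → ℤ) : Prop :=
  (∀ B, d B = 0 ∨ d B = 1) ∧ ∀ g, g ∣ N → g < N → ∀ (f : ℕ → α) (t₀ : ℕ),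
    ∃ t, t ≡ t₀ [MOD g] ∧ d ⟨wd N f t, wd_len f t⟩ ≠ 0

theorem nocyc_lfn (hN : 0 < N) (ha : Adn d) : NoCyc (lf (st (M := M) d T)) := by
  obtain ⟨hd, hf⟩ := ha
  rintro z ⟨s, K⟩ n hn hrun
  change run (lf (st d T)) (s, K) (H559.pw z n) = some (s, K) at hrun
  by_cases hz : z = []
  · subst hz; rfl
  have hz' : 0 < z.length := List.length_pos_iff.mpr hz
  have key : ∀ j, run (st d T) s (ps K (H559.pw z (n * j))) = some s ∧ rm K (H559.pw z (n * j)) = K := by
    intro j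
    have h1 := run_pw hrun j
    rw [← pw_mul, run_lf] at h1
    rcases h3 : run (st d T) s (ps K (H559.pw z (n * j))) with _ | t
    · rw [h3] at h1; cases h1
    · rw [h3] at h1
      have h4 := Option.some.inj h1
      have h5 : t = s := congrArg Prod.fst h4
      exact ⟨by rw [h5], congrArg Prod.snd h4⟩
  by_cases hd' : N ∣ z.length
  · obtain ⟨h1, h2⟩ := key 1
    rw [Nat.mul_one] at h1 h2
    have h3 := rm_cyc hn hz hd' h2
    have h4 := loop_all hd h1
    obtain ⟨k, rfl⟩ : ∃ k, n = k + 1 := ⟨n - 1, by omega⟩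
    rw [H559.pw_succ, ps_append] at h1 h4
    obtain ⟨s1, h5, -⟩ := run_append_eq_some h1
    have h6 := run_const (fun x hx => h4 x (List.mem_append_left _ hx)) h5
    rw [run_lf, h5, h3, h6]
    rfl
  exfalso
  have hg1 : Nat.gcd z.length N ∣ N := Nat.gcd_dvd_right _ _
  have hg2 : Nat.gcd z.length N < N := lt_of_le_of_ne (Nat.le_of_dvd hN hg1) fun h =>
    hd' (h ▸ Nat.gcd_dvd_left _ _)
  let f : ℕ → α := fun t => z[t % z.length]'(Nat.mod_lt _ hz')
  obtain ⟨t, ht0, ht⟩ := hf _ hg1 hg2 f (N - K.1.length)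
  obtain ⟨t', h1, h2⟩ := Nat.chineseRemainder' ht0
  have hK := K.2
  have h3 : (K.1.length + t') % N = 0 := by
    have h4 : K.1.length + t' ≡ K.1.length + (N - K.1.length) [MOD N] := Nat.ModEq.add_left _ h2
    rw [show K.1.length + (N - K.1.length) = N by omega] at h4
    rw [h4]
    exact Nat.mod_self N
  have h5 : wd N f t' = wd N f t := by
    refine wd_congr fun i _ => ?_
    change z[(t' + i) % z.length]'_ = z[(t + i) % z.length]'_
    have : (t' + i) % z.length = (t + i) % z.length := Nat.ModEq.add_right i h1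
    simp only [this]
  obtain ⟨B, h6, h7⟩ := mem_ps (m := (n * (t' + N)) * z.length) hN f K h3 (by
    calc t' + N = 1 * (t' + N) * 1 := by ring
      _ ≤ n * (t' + N) * z.length :=
        Nat.mul_le_mul (Nat.mul_le_mul_right _ hn) hz')
  rw [← pw_range z hz'] at h6
  have h8 := loop_all hd (key (t' + N)).1 B h6
  apply ht
  have h9 : B = ⟨wd N f t, wd_len f t⟩ := Subtype.ext (h7.trans h5)
  rw [← h9, h8]

end nocyc

section known

variable {α : Type} [Finite α] {N : ℕ}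

theorem kz_eln (hN : 0 < N) {d : Blk α N → ℤ} (hd : Adn d) {β : Blk α N} (hβ : d β = 0) {M : ℕ}
    [NeZero M] (u : ZMod M) : KZ fun w => el d β u w := by
  intro K
  have h3 := KnZ.of_event (nocyc_lfn (M := M) (T := fun x => β = x) hN hd)
    (0, ⟨[], hN⟩) (u, K)
  have h4 := KnZ.of_event (nocyc_lfn (M := M) (T := fun _ => False) hN hd)
    (0, ⟨[], hN⟩) (u, K)
  refine (h3.sub h4).congr fun w => ?_
  change el d β u (ps K w) = _
  rw [← el_eq d β hβ, (fin_lf ⟨[], hN⟩ rfl 0 w u K).2, (fin_lf ⟨[], hN⟩ rfl 0 w u K).2]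

theorem kz_dPn (hN : 0 < N) {d : Blk α N → ℤ} (hd : Adn d) {β : Blk α N} (hβ : d β = 0) :
    KZ fun w => dP d β 0 w := by
  intro K n hn
  haveI : NeZero n := ⟨hn.ne'⟩
  have h1 := kn_sum (α := α) (A := ZMod n) (Finset.univ : Finset (ZMod n)) fun u _ =>
    (kz_eln hN hd hβ u K n hn).comp fun x => (((0 : ℤ) : ZMod n) - u) * x
  intro v
  refine Eq.mp (congrArg (SH 1) ?_) (h1 v)
  ext w
  change (∑ u : ZMod n, (((0 : ℤ) : ZMod n) - u) * ((el d β u (ps K w) : ℤ) : ZMod n)) = v ↔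
    ((dP d β 0 (ps K w) : ℤ) : ZMod n) = v
  rw [dP_el]

/-- blocks with a period -/
def Fln {n : ℕ} (B : Blk α n) : Prop :=
  ∃ p : ℕ, p.Prime ∧ p ∣ n ∧ ∀ (a : α) (s : ZMod n),
    nc n a (s + ((n / p : ℕ) : ZMod n)) B.1 = nc n a s B.1

/-- the exceptional pairs -/
def Exn {n : ℕ} (B' B : Blk α n) : Prop :=
  ∃ p : ℕ, p.Prime ∧ p ∣ n ∧ ∀ (a : α) (s : ZMod n),
    nc n a (s + ((n / p : ℕ) : ZMod n)) B'.1 + nc n a (s + ((n / p : ℕ) : ZMod n)) B.1 =
      nc n a s B'.1 + nc n a s B.1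

/-- the pair counts of blocks -/
def HPn (α : Type) (n : ℕ) : Prop :=
  ∀ (K : Par α n) (g b : Blk α n), g ≠ b → ¬ Fln g → ¬ Fln b → ¬ Exn g b →
    KnZ fun w : List α => pc g b (ps K w)

theorem Exn.symm {n : ℕ} {B' B : Blk α n} (h : Exn B' B) : Exn B B' := by
  obtain ⟨p, h1, h2, h3⟩ := h
  exact ⟨p, h1, h2, fun a s => by rw [add_comm, h3, add_comm]⟩

open Classical in
theorem nc_wd [NeZero N] (a : α) (s : ZMod N) (f : ℕ → α) (t : ℕ) :
    nc N a s (wd N f t) = if f (t + s.val) = a then 1 else 0 := by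
  have h1 := nc_blk a s (⟨wd N f t, wd_len f t⟩ : Blk α N)
  have h2 := ZMod.val_lt s
  change nc N a s (wd N f t) = if (wd N f t)[N - 1 - s.val]? = some a then 1 else 0 at h1
  rw [h1, wd_get f t (by omega), show N - 1 - (N - 1 - s.val) = s.val by omega]
  exact if_congr (by rw [Option.some.injEq]) rfl rfl

theorem val_mod [NeZero N] {g c : ℕ} (hg : g ∣ N) (hc : g ∣ c) (s : ZMod N) :
    (s + ((c : ℕ) : ZMod N)).val % g = s.val % g := by
  rw [ZMod.val_add, ZMod.val_natCast, Nat.mod_mod_of_dvd _ hg, Nat.add_mod,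
    Nat.mod_mod_of_dvd _ hg, (Nat.dvd_iff_mod_eq_zero).mp hc, Nat.add_zero, Nat.mod_mod]

theorem prime_of {g : ℕ} (hN : 0 < N) (h1 : g ∣ N) (h2 : g < N) :
    ∃ p : ℕ, p.Prime ∧ p ∣ N ∧ g ∣ N / p := by
  obtain ⟨c, rfl⟩ := h1
  have hc : c ≠ 1 := by rintro rfl; rw [Nat.mul_one] at h2; exact lt_irrefl _ h2
  obtain ⟨p, hp, r, rfl⟩ := Nat.exists_prime_and_dvd hc
  refine ⟨p, hp, ⟨g * r, by ring⟩, ?_⟩
  rw [show g * (p * r) = p * (g * r) by ring, Nat.mul_div_cancel_left _ hp.pos]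
  exact Dvd.intro _ rfl

theorem fln_of (hN : 0 < N) {g : ℕ} (h1 : g ∣ N) (h2 : g < N) {f : ℕ → α} {t : ℕ}
    (h : wd N f t = wd N f (t + g)) {B : Blk α N} (hB : B.1 = wd N f t) : Fln B := by
  classical
  haveI : NeZero N := ⟨hN.ne'⟩
  obtain ⟨p, hp, hpN, hgp⟩ := prime_of hN h1 h2
  refine ⟨p, hp, hpN, fun a s => ?_⟩
  have h3 := wd_inj h
  have h4 : ∀ j i, i + g * j < N → f (t + (i + g * j)) = f (t + i) := by
    intro j
    induction j with
    | zero => intro i _; rfl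
    | succ j ih =>
      intro i hi
      rw [Nat.mul_succ] at hi
      rw [← ih i (by omega), h3 (i + g * j) (by omega)]
      congr 1
      ring
  have h5 : ∀ s : ZMod N, nc N a s B.1 = if f (t + s.val % g) = a then 1 else 0 := by
    intro s
    rw [hB, nc_wd]
    have h6 := ZMod.val_lt s
    have h7 := Nat.mod_add_div s.val g
    have h8 := h4 (s.val / g) (s.val % g) (by omega)
    rw [h7] at h8
    rw [h8]
  rw [h5, h5, val_mod h1 hgp]

theorem exn_of (hN : 0 < N) {g : ℕ} (h1 : g ∣ N) (h2 : g < N) {f : ℕ → α} {t : ℕ}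
    (h : wd N f t = wd N f (t + 2 * g)) {B C : Blk α N} (hB : B.1 = wd N f t)
    (hC : C.1 = wd N f (t + g)) : Exn B C := by
  classical
  haveI : NeZero N := ⟨hN.ne'⟩
  obtain ⟨p, hp, hpN, hgp⟩ := prime_of hN h1 h2
  refine ⟨p, hp, hpN, fun a s => ?_⟩
  have h3 := wd_inj h
  have h4 : ∀ j i, i + 2 * g * j < N + 2 * g → f (t + (i + 2 * g * j)) = f (t + i) := by
    intro j
    induction j with
    | zero => intro i _; rfl
    | succ j ih =>
      intro i hi
      rw [Nat.mul_succ] at hi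
      rw [← ih i (by omega), h3 (i + 2 * g * j) (by omega)]
      congr 1
      ring
  have h5 : ∀ s : ZMod N, nc N a s B.1 + nc N a s C.1 =
      (if f (t + s.val % g) = a then 1 else 0) + (if f (t + (s.val % g + g)) = a then 1 else 0) := by
    intro s
    rw [hB, hC, nc_wd, nc_wd]
    have h6 := ZMod.val_lt s
    have h7 := Nat.mod_add_div s.val g
    obtain ⟨j, hj | hj⟩ := Nat.even_or_odd' (s.val / g)
    · have e1 : s.val = s.val % g + 2 * g * j := by
        calc s.val = s.val % g + g * (s.val / g) := h7.symm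
          _ = _ := by rw [hj]; ring
      have e2 := h4 j (s.val % g) (by omega)
      have e3 := h4 j (s.val % g + g) (by omega)
      rw [← e1] at e2
      rw [show s.val % g + g + 2 * g * j = g + s.val by
        rw [show s.val % g + g + 2 * g * j = g + (s.val % g + 2 * g * j) by ring, ← e1]] at e3
      rw [e2, Nat.add_assoc t g s.val, e3]
    · have e1 : s.val = (s.val % g + g) + 2 * g * j := by
        calc s.val = s.val % g + g * (s.val / g) := h7.symm
          _ = _ := by rw [hj]; ring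
      have e4 : g + s.val = s.val % g + 2 * g * (j + 1) := by
        calc g + s.val = g + ((s.val % g + g) + 2 * g * j) := by rw [← e1]
          _ = _ := by ring
      have e2 := h4 j (s.val % g + g) (by omega)
      have e3 := h4 (j + 1) (s.val % g) (by omega)
      rw [← e1] at e2
      rw [← e4] at e3
      rw [e2, Nat.add_assoc t g s.val, e3, add_comm]
  rw [h5, h5, val_mod h1 hgp]

open Classical in
theorem adn_two (hN : 0 < N) {β γ : Blk α N} (hβ : ¬ Fln β) (hγ : ¬ Fln γ) (hE : ¬ Exn β γ)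
    {g : ℕ} (h1 : g ∣ N) (h2 : g < N) (f : ℕ → α) (t₀ : ℕ) : ∃ t, t ≡ t₀ [MOD g] ∧
      (⟨wd N f t, wd_len f t⟩ : Blk α N) ≠ β ∧ (⟨wd N f t, wd_len f t⟩ : Blk α N) ≠ γ := by
  by_contra hc
  have hc' : ∀ t, t ≡ t₀ [MOD g] → (⟨wd N f t, wd_len f t⟩ : Blk α N) = β ∨
      (⟨wd N f t, wd_len f t⟩ : Blk α N) = γ := by
    intro t ht
    by_contra h
    exact hc ⟨t, ht, fun h1 => h (Or.inl h1), fun h1 => h (Or.inr h1)⟩
  have m0 : t₀ ≡ t₀ [MOD g] := Nat.ModEq.refl _
  have m1 : t₀ + g ≡ t₀ [MOD g] := by unfold Nat.ModEq; simp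
  have m2 : t₀ + 2 * g ≡ t₀ [MOD g] := by unfold Nat.ModEq; simp
  have hne : ∀ t, t ≡ t₀ [MOD g] → wd N f t ≠ wd N f (t + g) := by
    intro t ht h
    rcases hc' t ht with h3 | h3
    · exact hβ (fln_of hN h1 h2 h (congrArg Subtype.val h3).symm)
    · exact hγ (fln_of hN h1 h2 h (congrArg Subtype.val h3).symm)
  have n0 := hne t₀ m0
  have n1 := hne (t₀ + g) m1
  rw [show t₀ + g + g = t₀ + 2 * g by ring] at n1
  rcases hc' t₀ m0 with h0 | h0 <;> rcases hc' (t₀ + g) m1 with h3 | h3 <;>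
    rcases hc' (t₀ + 2 * g) m2 with h4 | h4 <;>
    have e0 := congrArg Subtype.val h0 <;> have e1 := congrArg Subtype.val h3 <;>
    have e2 := congrArg Subtype.val h4 <;> dsimp only at e0 e1 e2
  · exact n0 (e0.trans e1.symm)
  · exact n0 (e0.trans e1.symm)
  · exact hE (exn_of hN h1 h2 (e0.trans e2.symm) e0.symm e1.symm)
  · exact n1 (e1.trans e2.symm)
  · exact n1 (e1.trans e2.symm)
  · exact hE (exn_of hN h1 h2 (e0.trans e2.symm) e0.symm e1.symm).symm
  · exact n0 (e0.trans e1.symm)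
  · exact n0 (e0.trans e1.symm)

/-- **pair counts of blocks of `n` letters** -/
theorem hpn (hN : 0 < N) : HPn α N := by
  classical
  intro K γ β hne hγ hβ hE
  let e₁ : Blk α N → ℤ := fun B => if B = β then 0 else 1
  let e₂ : Blk α N → ℤ := fun B => if B = β ∨ B = γ then 0 else 1
  have hE0 : ¬ Exn β β := by
    rintro ⟨p, h1, h2, h3⟩
    exact hβ ⟨p, h1, h2, fun a s => by have := h3 a s; omega⟩
  have a1 : Adn e₁ := by
    refine ⟨fun B => ?_, fun g h1 h2 f t₀ => ?_⟩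
    · change (if B = β then (0 : ℤ) else 1) = 0 ∨ (if B = β then (0 : ℤ) else 1) = 1
      split
      · exact Or.inl rfl
      · exact Or.inr rfl
    · obtain ⟨t, h3, h4, -⟩ := adn_two hN hβ hβ hE0 h1 h2 f t₀
      refine ⟨t, h3, ?_⟩
      change (if _ = β then (0 : ℤ) else 1) ≠ 0
      rw [if_neg h4]
      decide
  have a2 : Adn e₂ := by
    refine ⟨fun B => ?_, fun g h1 h2 f t₀ => ?_⟩
    · change (if B = β ∨ B = γ then (0 : ℤ) else 1) = 0 ∨
        (if B = β ∨ B = γ then (0 : ℤ) else 1) = 1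
      split
      · exact Or.inl rfl
      · exact Or.inr rfl
    · obtain ⟨t, h3, h4, h5⟩ := adn_two hN hβ hγ (fun h => hE h.symm) h1 h2 f t₀
      refine ⟨t, h3, ?_⟩
      change (if _ = β ∨ _ = γ then (0 : ℤ) else 1) ≠ 0
      rw [if_neg (fun h => h.elim h4 h5)]
      decide
  have b1 : e₁ β = 0 := if_pos rfl
  have b2 : e₂ β = 0 := if_pos (Or.inl rfl)
  refine ((kz_dPn hN a1 b1 K).sub (kz_dPn hN a2 b2 K)).congr fun w => ?_
  have h1 := dP_sub e₁ e₂ (fun x => if x = γ then 1 else 0) (fun x => by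
    change (if x = β then (0 : ℤ) else 1) = (if x = β ∨ x = γ then (0 : ℤ) else 1) +
      (if x = γ then 1 else 0)
    by_cases h1 : x = β
    · rw [if_pos h1, if_pos (Or.inl h1), if_neg (fun h2 => hne (h2.symm.trans h1))]; rfl
    · by_cases h2 : x = γ
      · rw [if_neg h1, if_pos (Or.inr h2), if_pos h2]; rfl
      · rw [if_neg h1, if_neg (fun h => h.elim h1 h2), if_neg h2]; rfl) β (ps K w) 0 0 0
    (by ring)
  change pc γ β (ps K w) = dP e₁ β 0 (ps K w) - dP e₂ β 0 (ps K w)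
  have h2 : dP (fun x => if x = γ then 1 else 0) β 0 (ps K w) = pcA γ β 0 (ps K w) := by
    convert dP_pc γ β (ps K w) 0
  rw [h1, h2, pc]
  ring

end known

end Vale.Agent.P329.H131.Qn
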